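import Mathlib
import Vale.Agent.P047.Main

/-! P047: the square-root bound with (one-sided) conical junta degree in place of degree. -/

namespace Vale.Agent.Results.P047.ConicalJunta

open Vale.Agent.P047 Finset

/-- `g` is a conical junta of degree at most `k`: a nonnegative combination of indicators of
subcubes of codimension at most `k`. -/
def IsConicalJunta {n : ℕ} (k : ℕ) (g : (Fin n → Bool) → ℝ) : Prop :=
  ∃ (m : ℕ) (w : Fin m → ℝ) (P N : Fin m → Finset (Fin n)), (∀ c, 0 ≤ w c) ∧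
    (∀ c, Disjoint (P c) (N c)) ∧ (∀ c, (P c).card + (N c).card ≤ k) ∧
    ∀ x, g x = ∑ c, w c * ind (P c) (N c) x

theorem expec_width {n m : ℕ} (w : Fin m → ℝ) (P N : Fin m → Finset (Fin n))
    (hd : ∀ c, Disjoint (P c) (N c)) :
    expec (fun x => ∑ c, w c * (((P c).card : ℝ) + (N c).card) * ind (P c) (N c) x) =
      ∑ c, w c * (1 / 2) ^ ((P c).card + (N c).card) * (((P c).card : ℝ) + (N c).card) := by
  rw [expec_sum (fun c => w c * (((P c).card : ℝ) + (N c).card)) (fun c => ind (P c) (N c))]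
  refine Finset.sum_congr rfl fun c _ => ?_
  rw [expec_ind _ _ (hd c)]
  ring

theorem general {n m : ℕ} (w : Fin m → ℝ) (P N : Fin m → Finset (Fin n)) (hw : ∀ c, 0 ≤ w c)
    (hd : ∀ c, Disjoint (P c) (N c)) (g : (Fin n → Bool) → ℝ)
    (hg : ∀ x, g x = ∑ c, w c * ind (P c) (N c) x) (hg1 : ∀ x, g x ≤ 1) :
    ∑ i, |coef g i| ≤ 2 * √((1 - expec g) *
      expec (fun x => ∑ c, w c * (((P c).card : ℝ) + (N c).card) * ind (P c) (N c) x)) := by
  rw [expec_width w P N hd]
  exact level_one w hw P N hd g hg hg1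

theorem expec_le_one {n : ℕ} (g : (Fin n → Bool) → ℝ) (hg1 : ∀ x, g x ≤ 1) : expec g ≤ 1 := by
  rw [expec, div_le_one (by positivity)]
  calc ∑ x, g x ≤ ∑ _x : Fin n → Bool, (1:ℝ) := Finset.sum_le_sum fun x _ => hg1 x
    _ = 2 ^ n := by simp

theorem width_le {n m k : ℕ} (w : Fin m → ℝ) (P N : Fin m → Finset (Fin n)) (hw : ∀ c, 0 ≤ w c)
    (hd : ∀ c, Disjoint (P c) (N c)) (hk : ∀ c, (P c).card + (N c).card ≤ k)
    (g : (Fin n → Bool) → ℝ) (hg : ∀ x, g x = ∑ c, w c * ind (P c) (N c) x) :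
    expec (fun x => ∑ c, w c * (((P c).card : ℝ) + (N c).card) * ind (P c) (N c) x) ≤
      k * expec g := by
  have hE : expec g = ∑ c, w c * (1 / 2) ^ ((P c).card + (N c).card) := by
    have hgf : g = fun x => ∑ c, w c * ind (P c) (N c) x := funext hg
    rw [hgf, expec_sum]
    exact Finset.sum_congr rfl fun c _ => by rw [expec_ind _ _ (hd c)]
  rw [expec_width w P N hd, hE, Finset.mul_sum]
  refine Finset.sum_le_sum fun c _ => ?_
  have h1 : (((P c).card : ℝ) + (N c).card) ≤ k := by exact_mod_cast hk c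
  have h2 : 0 ≤ w c * (1 / 2) ^ ((P c).card + (N c).card) := by
    have := hw c
    positivity
  have := mul_le_mul_of_nonneg_left h1 h2
  linarith

theorem unit_interval {n k : ℕ} (g : (Fin n → Bool) → ℝ) (hg1 : ∀ x, g x ≤ 1)
    (hg : IsConicalJunta k g) :
    ∑ i, |coef g i| ≤ 2 * √(k * (expec g * (1 - expec g))) := by
  obtain ⟨m, w, P, N, hw, hd, hk, hg⟩ := hg
  refine (general w P N hw hd g hg hg1).trans ?_
  have h1 := width_le w P N hw hd hk g hg
  have h2 := expec_le_one g hg1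
  refine mul_le_mul_of_nonneg_left (Real.sqrt_le_sqrt ?_) (by norm_num)
  have := mul_le_mul_of_nonneg_left h1 (by linarith : 0 ≤ 1 - expec g)
  linarith

theorem coef_affine {n : ℕ} (f : (Fin n → Bool) → ℝ) (s : ℝ) (i : Fin n) :
    coef (fun x => (1 + s * f x) / 2) i = s / 2 * coef f i := by
  have h0 : ∑ x : Fin n → Bool, sg (x i) = 0 := by
    have h := coef_ind (n := n) ∅ ∅ (by simp) i
    simp only [coef, expec, ind, Finset.notMem_empty, false_implies, implies_true, and_self,
      if_true, one_mul, if_false, sub_zero, mul_zero] at h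
    have h2 : (2:ℝ) ^ n ≠ 0 := by positivity
    rcases div_eq_zero_iff.1 h with h | h
    · exact h
    · exact absurd h h2
  simp only [coef, expec]
  have : ∑ x : Fin n → Bool, (1 + s * f x) / 2 * sg (x i) =
      1 / 2 * (∑ x : Fin n → Bool, sg (x i)) + s / 2 * ∑ x : Fin n → Bool, f x * sg (x i) := by
    rw [Finset.mul_sum, Finset.mul_sum, ← Finset.sum_add_distrib]
    exact Finset.sum_congr rfl fun x _ => by ring
  rw [this, h0]
  ring

theorem expec_affine {n : ℕ} (f : (Fin n → Bool) → ℝ) (s : ℝ) :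
    expec (fun x => (1 + s * f x) / 2) = (1 + s * expec f) / 2 := by
  simp only [expec]
  have h2 : (2:ℝ) ^ n ≠ 0 := by positivity
  have : ∑ x : Fin n → Bool, (1 + s * f x) / 2 = 2 ^ n / 2 + s / 2 * ∑ x, f x := by
    rw [Finset.mul_sum]
    have e : (2:ℝ) ^ n / 2 = ∑ _x : Fin n → Bool, (1:ℝ) / 2 := by simp [div_eq_mul_inv]
    rw [e, ← Finset.sum_add_distrib]
    exact Finset.sum_congr rfl fun x _ => by ring
  rw [this]
  field_simp

/-- The result: for a Boolean `f` on the cube such that `1_{f = 1}` (or `1_{f = -1}`) is a conical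
junta of degree at most `k`, the level-one Fourier sum is at most `2 sqrt (k Var f)`; together with
the version with the average width, and the version for functions with values at most one. -/
theorem result :
    (∀ (n k : ℕ) (f : (Fin n → Bool) → ℝ), (∀ x, f x = 1 ∨ f x = -1) →
      (IsConicalJunta k (fun x => (1 + f x) / 2) ∨ IsConicalJunta k (fun x => (1 - f x) / 2)) →
      ∑ i, |coef f i| ≤ 2 * √(k * (1 - expec f ^ 2)) ∧ ∑ i, |coef f i| ≤ 2 * √k) ∧
    (∀ (n m : ℕ) (f : (Fin n → Bool) → ℝ), (∀ x, f x = 1 ∨ f x = -1) →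
      ∀ (s : ℝ), (s = 1 ∨ s = -1) → ∀ (w : Fin m → ℝ) (P N : Fin m → Finset (Fin n)),
      (∀ c, 0 ≤ w c) → (∀ c, Disjoint (P c) (N c)) →
      (∀ x, (1 + s * f x) / 2 = ∑ c, w c * ind (P c) (N c) x) →
      ∑ i, |coef f i| ≤ 4 * √((1 - s * expec f) / 2 *
        expec (fun x => ∑ c, w c * (((P c).card : ℝ) + (N c).card) * ind (P c) (N c) x))) ∧
    (∀ (n k : ℕ) (g : (Fin n → Bool) → ℝ), (∀ x, g x ≤ 1) → IsConicalJunta k g →
      ∑ i, |coef g i| ≤ 2 * √(k * (expec g * (1 - expec g)))) := by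
  have hle : ∀ (n : ℕ) (f : (Fin n → Bool) → ℝ), (∀ x, f x = 1 ∨ f x = -1) →
      ∀ (s : ℝ), (s = 1 ∨ s = -1) → ∀ x, (1 + s * f x) / 2 ≤ 1 := by
    intro n f hf s hs x
    rcases hf x with h | h <;> rcases hs with h' | h' <;> rw [h, h'] <;> norm_num
  have hsum : ∀ (n : ℕ) (f : (Fin n → Bool) → ℝ) (s : ℝ), (s = 1 ∨ s = -1) →
      ∑ i, |coef f i| = 2 * ∑ i, |coef (fun x => (1 + s * f x) / 2) i| := by
    intro n f s hs
    rw [Finset.mul_sum]
    refine Finset.sum_congr rfl fun i _ => ?_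
    have hs1 : |s| = 1 := by rcases hs with h | h <;> rw [h] <;> simp
    rw [coef_affine, abs_mul, abs_div, hs1, abs_of_pos (by norm_num : (0:ℝ) < 2)]
    ring
  have main : ∀ (n k : ℕ) (f : (Fin n → Bool) → ℝ), (∀ x, f x = 1 ∨ f x = -1) →
      ∀ (s : ℝ), (s = 1 ∨ s = -1) → IsConicalJunta k (fun x => (1 + s * f x) / 2) →
      ∑ i, |coef f i| ≤ 2 * √(k * (1 - expec f ^ 2)) := by
    intro n k f hf s hs hg
    have h := unit_interval _ (hle n f hf s hs) hg
    rw [expec_affine] at h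
    rw [hsum n f s hs]
    have hs2 : s ^ 2 = 1 := by rcases hs with h | h <;> rw [h] <;> norm_num
    have e1 : (k : ℝ) * ((1 + s * expec f) / 2 * (1 - (1 + s * expec f) / 2)) =
        (k * (1 - expec f ^ 2)) / 4 := by
      linear_combination (-(k:ℝ) * expec f ^ 2 / 4) * hs2
    rw [e1] at h
    have e2 : √(↑k * (1 - expec f ^ 2) / 4) = √(↑k * (1 - expec f ^ 2)) / 2 := by
      rw [Real.sqrt_div' _ (by norm_num)]
      congr 1
      rw [show (4:ℝ) = 2 ^ 2 by norm_num]
      exact Real.sqrt_sq (by norm_num)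
    rw [e2] at h
    linarith
  refine ⟨?_, ?_, fun n k g hg1 hg => unit_interval g hg1 hg⟩
  · intro n k f hf hg
    have h1 : ∑ i, |coef f i| ≤ 2 * √(k * (1 - expec f ^ 2)) := by
      rcases hg with hg | hg
      · refine main n k f hf 1 (Or.inl rfl) ?_
        simpa using hg
      · refine main n k f hf (-1) (Or.inr rfl) ?_
        have e : (fun x => (1 + -1 * f x) / 2) = fun x => (1 - f x) / 2 := by
          funext x; ring
        rw [e]; exact hg
    refine ⟨h1, h1.trans ?_⟩
    refine mul_le_mul_of_nonneg_left (Real.sqrt_le_sqrt ?_) (by norm_num)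
    have : (0:ℝ) ≤ k * expec f ^ 2 := by positivity
    linarith
  · intro n m f hf s hs w P N hw hd hg
    have h := general w P N hw hd (fun x => (1 + s * f x) / 2) hg (hle n f hf s hs)
    rw [expec_affine] at h
    rw [hsum n f s hs]
    have e1 : 1 - (1 + s * expec f) / 2 = (1 - s * expec f) / 2 := by ring
    rw [e1] at h
    linarith

end Vale.Agent.Results.P047.ConicalJunta
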